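import Vale.Agent.P155.NO801.Y4a
import Vale.Agent.P155.SW814.Bt
import Vale.Agent.P155.SW733.Macro
import Vale.Agent.P155.SW801.Defs
import Vale.Agent.P155.K.GFF

/-!
# P155, (SW), block (3): passage to the limit for functions of the explored set
-/

namespace Vale.Agent.P155.SW743

open MeasureTheory Filter Topology TopologicalSpace Vale.Agent.P155 Vale.Agent.P155.Q1
  Vale.Agent.P155.EX NO801.Y

section

variable {V : Set ℂ} {Θ : Type} [MeasurableSpace Θ] {P : Measure Θ}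
  {G : ℕ → Θ → NonemptyCompacts ℂ} {ξ : ℕ → ℕ → Θ → ℝ}

open scoped PiCountable in
/-- passage to the limit along typical sequences -/
theorem pass_pre (ho : IsOpen V) (hb : Bornology.IsBounded V) (hne : V.Nonempty)
    (hsc : SimplyConnectedSpace V) (S : TempApprox V) (h : T211Q.FairCarpets P V G ξ)
    {Φn : ℕ → Conf → ℝ} {Φ : SQ → ℝ} {M : ℝ} (hM : ∀ n, ∀ ω ∈ DD (S.T n).V, |Φn n ω| ≤ M)
    (hΦ : ∀ᵐ s ∂(lawS P G), ∀ (n : ℕ → ℕ) (ω : ℕ → Conf), Pre V S n ω s →
      Tendsto (fun j => Φn (n j) (ω j)) atTop (𝓝 (Φ s))) :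
    AEStronglyMeasurable Φ (lawS P G) ∧
      Tendsto (fun n => Ex (S.T n).V (Φn n)) atTop (𝓝 (∫ s, Φ s ∂(lawS P G))) := by
  have hP := h.prob
  have hL := lawS_prob h
  obtain ⟨-, hlim, -⟩ := gaskets QQ.full ho hb hne hsc S h
  have key := pass_countable' (lawS P G) (E := ℕ → NonemptyCompacts ℂ)
    (D := fun n => DD (S.T n).V)
    (Y := fun n ω l => toNC (gasket (S.δ n) (S.a n) (S.T n) l ω)) (Z := fun s l => s l)
    (Cd := CdX V S) (Φn := Φn) (Φ := Φ) (M := M)
    (fun F hF => hF.measurable.aestronglyMeasurable)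
    (by
      intro F hF hFb
      have e : ∫ s, F (fun l => s l) ∂(lawS P G) = ∫ x, F (fun l => G l x) ∂P :=
        integral_map (measurable_seq h).aemeasurable hF.measurable.aestronglyMeasurable
      rw [e]
      exact hlim F hF hFb)
    (by
      intro i ε hε
      exact cdX_tight pin_bdt.1 pin_bdt.2 ho hb hne hsc QQ.tight.1 QQ.tight.2.1 QQ.tight.2.2 i ε hε)
    hM
    (by
      filter_upwards [lawS_zero h, lawS_null hb h, hΦ] with s h2 h3 h4 n ω hn hω hcd hY
      exact h4 n ω (pre_of ho hb hn hω hY h2 h3 hcd))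
  exact ⟨key.1, key.2.1⟩

/-- block (3a): convergence of the explored sets along typical sequences -/
def KKLim (Ω : Set ℂ) (S : TempApprox Ω) (K : Set ℂ) (t : ℝ) : Prop :=
  ∀ (n : ℕ → ℕ) (ω : ℕ → Conf) (G : ℕ → NonemptyCompacts ℂ), Pre Ω S n ω G →
    SW814.GoodT Ω (G 1) K t → ∀ z, Tendsto (fun j => Metric.infDist z
      (SW733.kkd (S.δ (n j)) (S.a (n j)) (Metric.cthickening t K) (ω j))) atTop
      (𝓝 (Metric.infDist z (SW814.KK Ω (G 1) K t)))

/-- the discrete function -/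
noncomputable def Fd (S : TempApprox V) (K : Set ℂ) (t : ℝ) {m : ℕ} (z : Fin m → ℂ)
    (f : (Fin m → ℝ) → ℝ) (n : ℕ) (ω : Conf) : ℝ :=
  f fun i => Metric.infDist (z i) (SW733.kkd (S.δ n) (S.a n) (Metric.cthickening t K) ω)

/-- the limit function -/
noncomputable def Fc (Ω K : Set ℂ) (t : ℝ) {m : ℕ} (z : Fin m → ℂ)
    (f : (Fin m → ℝ) → ℝ) (A : NonemptyCompacts ℂ) : ℝ :=
  f fun i => Metric.infDist (z i) (SW814.KK Ω A K t)

theorem measurable_Fc {Ω K : Set ℂ} (ho : IsOpen Ω) (hb : Bornology.IsBounded Ω)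
    (hK : K.Nonempty) {t : ℝ} (ht : 0 ≤ t) {m : ℕ} (z : Fin m → ℂ) {f : (Fin m → ℝ) → ℝ}
    (hf : Continuous f) : Measurable (Fc Ω K t z f) := by
  unfold Fc
  exact hf.measurable.comp (measurable_pi_lambda _ fun i =>
    SW814.measurable_KK ho hb hK ht (z i))

/-- approximation by continuous functions of the first carpet, also in the discrete -/
theorem approx (ho : IsOpen V) (hb : Bornology.IsBounded V) (hne : V.Nonempty)
    (hsc : SimplyConnectedSpace V) (S : TempApprox V) (h : T211Q.FairCarpets P V G ξ)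
    {K : Set ℂ} (hK : K.Nonempty) {t : ℝ} (ht : 0 ≤ t) (hlim : KKLim V S K t)
    (hgood : ∀ᵐ s ∂(lawS P G), SW814.GoodT V (s 1) K t)
    {m : ℕ} (z : Fin m → ℂ) {f : (Fin m → ℝ) → ℝ} (hf : Continuous f)
    {C : ℝ} (hC : ∀ y, |f y| ≤ C) {ε : ℝ} (hε : 0 < ε) :
    ∃ g : BoundedContinuousFunction (NonemptyCompacts ℂ) ℝ,
      ∫ x, |Fc V K t z f (G 1 x) - g (G 1 x)| ∂P ≤ ε ∧
      ∀ᶠ n in atTop, Ex (S.T n).V (fun ω => |Fd S K t z f n ω -
        g (toNC (gasket (S.δ n) (S.a n) (S.T n) 1 ω))|) ≤ 2 * ε := by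
  have hP := h.prob
  have hL := lawS_prob h
  have hmF := measurable_Fc ho hb hK ht z hf
  have hm1 : Measurable (G 1) := h.mG 1
  have hμ : IsProbabilityMeasure (P.map (G 1)) :=
    Measure.isProbabilityMeasure_map hm1.aemeasurable
  have hint : Integrable (Fc V K t z f) (P.map (G 1)) :=
    Integrable.of_bound hmF.aestronglyMeasurable C
      (Eventually.of_forall fun A => by rw [Real.norm_eq_abs]; exact hC _)
  obtain ⟨g, hg, -⟩ := hint.exists_boundedContinuous_integral_sub_le hε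
  have hms : AEStronglyMeasurable (fun A => ‖Fc V K t z f A - g A‖) (P.map (G 1)) :=
    (hmF.sub g.continuous.measurable).norm.aestronglyMeasurable
  have e1 : ∫ x, |Fc V K t z f (G 1 x) - g (G 1 x)| ∂P ≤ ε := by
    rw [integral_map hm1.aemeasurable hms] at hg
    exact hg
  refine ⟨g, e1, ?_⟩
  obtain ⟨-, h2⟩ := pass_pre ho hb hne hsc S h (M := C + ‖g‖)
    (Φn := fun n ω => |Fd S K t z f n ω - g (toNC (gasket (S.δ n) (S.a n) (S.T n) 1 ω))|)
    (Φ := fun s => |Fc V K t z f (s 1) - g (s 1)|)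
    (by
      intro n ω _
      rw [abs_abs]
      refine (abs_sub _ _).trans ?_
      refine add_le_add (hC _) ?_
      rw [← Real.norm_eq_abs]
      exact g.norm_coe_le_norm _)
    (by
      filter_upwards [hgood] with s hs n ω hpre
      refine Tendsto.abs (Tendsto.sub ?_ ?_)
      · refine (hf.tendsto _).comp (tendsto_pi_nhds.2 fun i => ?_)
        exact hlim n ω s hpre hs (z i)
      · exact (g.continuous.tendsto _).comp (hpre.good.gasket 1))
  have e2 : ∫ s, |Fc V K t z f (s 1) - g (s 1)| ∂(lawS P G) ≤ ε := by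
    unfold lawS
    rw [integral_map (measurable_seq h).aemeasurable]
    · exact e1
    · have hm0 : Measurable fun s : SQ => s 1 := measurable_pi_apply 1
      exact (((hmF.comp hm0).sub (g.continuous.measurable.comp hm0)).norm).aestronglyMeasurable
  have h3 := h2.eventually (gt_mem_nhds (show ∫ s, |Fc V K t z f (s 1) - g (s 1)| ∂(lawS P G) < 2 * ε
    by linarith))
  exact h3.mono fun n hn => hn.le

/-- the full height against `φ` -/
noncomputable def hD (S : TempApprox V) (φ : ℂ → ℝ) (n : ℕ) (ω : Conf) : ℝ :=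
  hf ω (K.phin (S.δ n) (S.a n) φ)

/-- block (L1): the limit for continuous functions of the first carpet -/
def L1P (S : TempApprox V) (P : Measure Θ) (G : ℕ → Θ → NonemptyCompacts ℂ)
    (H : ℕ → Θ → (ℂ → ℝ) → ℝ) (φ : ℂ → ℝ) : Prop :=
  ∀ g : NonemptyCompacts ℂ → ℝ, Continuous g → (∃ C, ∀ y, |g y| ≤ C) →
    Tendsto (fun n => Ex (S.T n).V (fun ω =>
      (g (toNC (gasket (S.δ n) (S.a n) (S.T n) 1 ω)) : ℂ) *
        Complex.exp (Complex.I * Real.sqrt (Real.pi / 2) * (hD S φ n ω : ℝ)))) atTop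
      (𝓝 (∫ x, (g (G 1 x) : ℂ) *
        SWR.wt (H 1 x φ) (greenEnergy (V \ (G 1 x : Set ℂ)) φ) ∂P))

theorem norm_wt_le {a e : ℝ} (he : 0 ≤ e) : ‖SWR.wt a e‖ ≤ 1 := by
  unfold SWR.wt
  rw [Complex.norm_exp, Real.exp_le_one_iff]
  simp only [Complex.sub_re, Complex.mul_re, Complex.I_re, Complex.I_im, Complex.ofReal_re,
    Complex.ofReal_im, Complex.mul_im, Complex.div_ofNat_re]
  linarith

theorem norm_e (a : ℝ) : ‖Complex.exp (Complex.I * Real.sqrt (Real.pi / 2) * (a : ℝ))‖ = 1 := by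
  rw [show Complex.I * Real.sqrt (Real.pi / 2) * (a : ℝ) =
    ((Real.sqrt (Real.pi / 2) * a : ℝ) : ℂ) * Complex.I by push_cast; ring]
  exact Complex.norm_exp_ofReal_mul_I _

theorem norm_Ex_le_Ex {W : Finset Pt} {F : Conf → ℂ} {g : Conf → ℝ}
    (h : ∀ ω ∈ DD W, ‖F ω‖ ≤ g ω) : ‖Ex W F‖ ≤ Ex W g := by
  unfold Ex
  rw [norm_smul, norm_inv, Real.norm_of_nonneg (by positivity), smul_eq_mul]
  refine mul_le_mul_of_nonneg_left ?_ (by positivity)
  exact (norm_sum_le _ _).trans (Finset.sum_le_sum h)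

theorem meas_wt (h : T211Q.FairCarpets P V G ξ) {φ : ℂ → ℝ} (hφ : IsTest V φ) :
    Measurable fun x => SWR.wt (SWR.hgt V G ξ 1 x φ) (greenEnergy (V \ (G 1 x : Set ℂ)) φ) := by
  have h1 := (h.sc.meas 1).2 φ hφ
  unfold SWR.wt SWR.hgt
  exact Complex.measurable_exp.comp (((Complex.measurable_ofReal.comp h1.1).const_mul _).sub
    ((Complex.measurable_ofReal.comp h1.2).div_const 2))

/-- **the limit for functions of the explored set** -/
theorem lim_Fd (ho : IsOpen V) (hb : Bornology.IsBounded V) (hne : V.Nonempty)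
    (hsc : SimplyConnectedSpace V) (S : TempApprox V) (h : T211Q.FairCarpets P V G ξ)
    {K : Set ℂ} (hK : K.Nonempty) {t : ℝ} (ht : 0 ≤ t) (hlim : KKLim V S K t)
    (hgood : ∀ᵐ s ∂(lawS P G), SW814.GoodT V (s 1) K t)
    {m : ℕ} (z : Fin m → ℂ) {f : (Fin m → ℝ) → ℝ} (hf : Continuous f)
    {C : ℝ} (hC : ∀ y, |f y| ≤ C) {φ : ℂ → ℝ} (hφ : IsTest V φ)
    (hL1 : L1P S P G (SWR.hgt V G ξ) φ) :
    Tendsto (fun n => Ex (S.T n).V (fun ω => (Fd S K t z f n ω : ℂ) *
        Complex.exp (Complex.I * Real.sqrt (Real.pi / 2) * (hD S φ n ω : ℝ)))) atTop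
      (𝓝 (∫ x, (Fc V K t z f (G 1 x) : ℂ) * SWR.wt (SWR.hgt V G ξ 1 x φ)
        (greenEnergy (V \ (G 1 x : Set ℂ)) φ) ∂P)) := by
  have hP := h.prob
  rw [Metric.tendsto_nhds]
  intro ε hε
  obtain ⟨g, hg1, hg2⟩ := approx ho hb hne hsc S h hK ht hlim hgood z hf hC
    (ε := ε / 8) (by positivity)
  have h1 := hL1 g g.continuous ⟨‖g‖, fun y => by
    rw [← Real.norm_eq_abs]; exact g.norm_coe_le_norm y⟩
  rw [Metric.tendsto_nhds] at h1
  set wx : Θ → ℂ := fun x => SWR.wt (SWR.hgt V G ξ 1 x φ)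
    (greenEnergy (V \ (G 1 x : Set ℂ)) φ) with hwx
  have hwm : Measurable wx := meas_wt h hφ
  have hwb : ∀ x, ‖wx x‖ ≤ 1 := fun x =>
    norm_wt_le (U613.greenEnergy_nonneg hb hφ Set.sdiff_subset)
  have hm1 : Measurable (G 1) := h.mG 1
  have i1 : Integrable (fun x => (Fc V K t z f (G 1 x) : ℂ) * wx x) P := by
    refine Integrable.of_bound ((Complex.measurable_ofReal.comp
      ((measurable_Fc ho hb hK ht z hf).comp hm1)).mul hwm).aestronglyMeasurable C ?_
    refine Eventually.of_forall fun x => ?_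
    rw [norm_mul, Complex.norm_real, Real.norm_eq_abs]
    calc _ ≤ C * 1 := mul_le_mul (hC _) (hwb x) (norm_nonneg _) ((abs_nonneg _).trans (hC fun _ => 0))
      _ = C := mul_one C
  have i2 : Integrable (fun x => (g (G 1 x) : ℂ) * wx x) P := by
    refine Integrable.of_bound ((Complex.measurable_ofReal.comp
      (g.continuous.measurable.comp hm1)).mul hwm).aestronglyMeasurable ‖g‖ ?_
    refine Eventually.of_forall fun x => ?_
    rw [norm_mul, Complex.norm_real]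
    calc _ ≤ ‖g‖ * 1 := mul_le_mul (g.norm_coe_le_norm _) (hwb x) (norm_nonneg _) (norm_nonneg _)
      _ = ‖g‖ := mul_one _
  have e3 : ‖(∫ x, (g (G 1 x) : ℂ) * wx x ∂P) - ∫ x, (Fc V K t z f (G 1 x) : ℂ) * wx x ∂P‖ ≤
      ε / 8 := by
    rw [← integral_sub i2 i1]
    refine le_trans (norm_integral_le_integral_norm _) (le_trans ?_ hg1)
    refine integral_mono_of_nonneg (Eventually.of_forall fun x => norm_nonneg _) ?_
      (Eventually.of_forall fun x => ?_)
    · refine Integrable.of_bound (((measurable_Fc ho hb hK ht z hf).comp hm1).sub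
        (g.continuous.measurable.comp hm1)).norm.aestronglyMeasurable (C + ‖g‖) ?_
      refine Eventually.of_forall fun x => ?_
      rw [Real.norm_eq_abs, abs_abs]
      refine (abs_sub _ _).trans (add_le_add (hC _) ?_)
      rw [← Real.norm_eq_abs]
      exact g.norm_coe_le_norm _
    · simp only
      rw [← sub_mul, norm_mul]
      calc _ ≤ ‖(g (G 1 x) : ℂ) - (Fc V K t z f (G 1 x) : ℂ)‖ * 1 :=
            mul_le_mul_of_nonneg_left (hwb x) (norm_nonneg _)
        _ = |Fc V K t z f (G 1 x) - g (G 1 x)| := by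
            rw [mul_one, ← Complex.ofReal_sub, Complex.norm_real, Real.norm_eq_abs, abs_sub_comm]
  filter_upwards [hg2, h1 (ε / 8) (by positivity)] with n h2 h3
  have e1 : ‖Ex (S.T n).V (fun ω => (Fd S K t z f n ω : ℂ) *
        Complex.exp (Complex.I * Real.sqrt (Real.pi / 2) * (hD S φ n ω : ℝ))) -
      Ex (S.T n).V (fun ω => (g (toNC (gasket (S.δ n) (S.a n) (S.T n) 1 ω)) : ℂ) *
        Complex.exp (Complex.I * Real.sqrt (Real.pi / 2) * (hD S φ n ω : ℝ)))‖ ≤ 2 * (ε / 8) := by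
    rw [← _root_.Vale.Agent.P155.K.Ex_sub]
    refine (norm_Ex_le_Ex fun ω _ => ?_).trans h2
    rw [← sub_mul, norm_mul, norm_e, mul_one, ← Complex.ofReal_sub, Complex.norm_real,
      Real.norm_eq_abs]
  rw [dist_eq_norm] at h3 ⊢
  set A1 := Ex (S.T n).V (fun ω => (Fd S K t z f n ω : ℂ) *
        Complex.exp (Complex.I * Real.sqrt (Real.pi / 2) * (hD S φ n ω : ℝ)))
  set A2 := Ex (S.T n).V (fun ω => (g (toNC (gasket (S.δ n) (S.a n) (S.T n) 1 ω)) : ℂ) *
        Complex.exp (Complex.I * Real.sqrt (Real.pi / 2) * (hD S φ n ω : ℝ)))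
  set A3 := ∫ x, (g (G 1 x) : ℂ) * wx x ∂P
  set A4 := ∫ x, (Fc V K t z f (G 1 x) : ℂ) * wx x ∂P
  calc ‖A1 - A4‖ = ‖(A1 - A2) + (A2 - A3) + (A3 - A4)‖ := by congr 1; ring
    _ ≤ ‖A1 - A2‖ + ‖A2 - A3‖ + ‖A3 - A4‖ := norm_add₃_le
    _ < ε := by linarith

end

end Vale.Agent.P155.SW743
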