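import Vale.Agent.P155.SW743.Asm
import Vale.Agent.P155.SW733.Lim2
import Vale.Agent.P155.SW814.L1P

/-!
# P155, (SW): `SDL` from the discrete Schwinger-Dyson identity along a Temperleyan approximation
-/

namespace Vale.Agent.P155.SW743

open MeasureTheory Filter Topology TopologicalSpace Vale.Agent.P155 Vale.Agent.P155.Q1

theorem sdl_of_seq (hSeq : SeqP) : SWR.SDL :=
  sdl_of hSeq
    (fun _ _ _ _ _ _ _ hKc hKn hKs _ ht _ _ _ hp hg z =>
      SW733.tendsto_KK' hp hKc hKn hKs ht hg z)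
    (fun _ ho hb hne hsc S _ _ _ _ _ h _ hφ => SW814.l1p_fair ho hb hne hsc S h hφ)

end Vale.Agent.P155.SW743
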