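import Vale.Agent.P155.SW743.Pass
import Vale.Agent.P155.SW730.Inv
import Vale.Agent.P155.U.Taylor
import Vale.Agent.P155.U.Avg

/-!
# P155, (SW), block (3): the identity `SDL` from its discrete ingredients
-/

namespace Vale.Agent.P155.SW743

open MeasureTheory Filter Topology TopologicalSpace Vale.Agent.P155 Vale.Agent.P155.Q1
  Vale.Agent.P155.EX NO801.Y

/-- the discrete Schwinger-Dyson identity along a Temperleyan approximation -/
def SeqP : Prop := ∀ Ω : Set ℂ, IsOpen Ω → Bornology.IsBounded Ω → Ω.Nonempty →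
  SimplyConnectedSpace Ω → ∀ S : TempApprox Ω, ∀ Bm : Set ℂ, IsOpen Bm →
  ∀ χ ψ : ℂ → ℝ, IsTest Ω χ → IsTest Ω ψ → tsupport ψ ⊆ Bm →
  ∀ F : ℕ → Conf → ℂ, (∀ n, ∀ ω ∈ DD (S.T n).V, ‖F n ω‖ ≤ 1) →
  (∀ n, SW730.InvIn (S.T n).V (SW733.vs (S.δ n) (S.a n) Bm) (F n)) →
  Tendsto (fun n => Ex (S.T n).V (fun ω => F n ω *
      Complex.exp (Complex.I * Real.sqrt (Real.pi / 2) *
        (hD S (fun z => χ z - UK.lapC ψ z) n ω : ℝ))) -
    Complex.exp (-(∫ w, ψ w * χ w) - SWR.dir2 ψ / 2) * Ex (S.T n).V (fun ω => F n ω *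
      Complex.exp (Complex.I * Real.sqrt (Real.pi / 2) * (hD S χ n ω : ℝ)))) atTop (𝓝 0)

theorem isTest_sub_lap {Ω : Set ℂ} {χ ψ : ℂ → ℝ} (hχ : IsTest Ω χ) (hψ : IsTest Ω ψ) :
    IsTest Ω (fun z => χ z - UK.lapC ψ z) := by
  have h := UK.IsTest.add_mul (-1) hχ (UK.lapC_test hψ)
  have e : (fun z => χ z - UK.lapC ψ z) = fun z => χ z + -1 * UK.lapC ψ z := by
    funext z
    ring
  rw [e]
  exact h

theorem KK_eq {Ω K : Set ℂ} (hK : IsClosed K) (A : Set ℂ) :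
    SWR.KK Ω K A = SW814.KK Ω A K 0 := by
  rw [SW814.KK_zero hK]
  unfold SWR.KK
  congr 1
  ext w
  simp only [Set.mem_sUnion, Set.mem_iUnion, Set.mem_ofPred_eq]
  constructor
  · rintro ⟨C, ⟨U, h1, h2, rfl⟩, h3⟩
    exact ⟨U, ⟨h1, h2⟩, h3⟩
  · rintro ⟨U, ⟨h1, h2⟩, h3⟩
    exact ⟨closure U, ⟨U, h1, h2, rfl⟩, h3⟩

/-- functions of the explored set which vanish unless it misses the balls are invariant -/
theorem inv_Fd {V : Set ℂ} (S : TempApprox V) (K : Set ℂ) (t : ℝ) {m : ℕ} (z : Fin m → ℂ)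
    {f : (Fin m → ℝ) → ℝ} (I : Finset (Fin m)) (r : Fin m → ℝ)
    (hf0 : ∀ y, f y ≠ 0 → ∀ i ∈ I, r i < y i) (c : ℝ) (n : ℕ) :
    SW730.InvIn (S.T n).V (SW733.vs (S.δ n) (S.a n) (⋃ i ∈ I, Metric.ball (z i) (r i)))
      (fun ω => ((Fd S K t z f n ω / c : ℝ) : ℂ)) := by
  classical
  set Bm : Set ℂ := ⋃ i ∈ I, Metric.ball (z i) (r i) with hBm
  set g : Set ℂ → ℂ := fun A => ((f (fun i => Metric.infDist (z i) A) / c : ℝ) : ℂ) with hg
  have key : ∀ ω, ((Fd S K t z f n ω / c : ℝ) : ℂ) =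
      if Disjoint (SW733.kkd (S.δ n) (S.a n) (Metric.cthickening t K) ω) Bm ∧
        SW733.AV (SW733.vs (S.δ n) (S.a n) Bm) ∅ ω then
        g (SW733.kkd (S.δ n) (S.a n) (Metric.cthickening t K) ω) else 0 := by
    intro ω
    by_cases hd : Disjoint (SW733.kkd (S.δ n) (S.a n) (Metric.cthickening t K) ω) Bm
    · rw [if_pos ⟨hd, fun f hf => absurd hf (Set.notMem_empty f)⟩]
      rfl
    · rw [if_neg (fun h => hd h.1)]
      have h0 : Fd S K t z f n ω = 0 := by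
        by_contra hne
        apply hd
        rw [Set.disjoint_left]
        intro w hw hwB
        rw [hBm, Set.mem_iUnion₂] at hwB
        obtain ⟨i, hi, hwi⟩ := hwB
        have h1 := hf0 _ hne i hi
        have h2 : Metric.infDist (z i)
            (SW733.kkd (S.δ n) (S.a n) (Metric.cthickening t K) ω) ≤ dist (z i) w :=
          Metric.infDist_le_dist_of_mem hw
        rw [Metric.mem_ball, dist_comm] at hwi
        linarith
      rw [h0]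
      simp
  intro ω hω ω' hω' he
  simp only
  rw [key ω, key ω']
  exact SW733.inv_F (S.pos n) g ∅ ω hω ω' hω' he

section

variable {V : Set ℂ} {Θ : Type} [MeasurableSpace Θ] {P : Measure Θ}
  {G : ℕ → Θ → NonemptyCompacts ℂ} {ξ : ℕ → ℕ → Θ → ℝ}

/-- the identity at a good level `t` -/
theorem sd_t (hSeq : SeqP) (ho : IsOpen V) (hb : Bornology.IsBounded V) (hne : V.Nonempty)
    (hsc : SimplyConnectedSpace V) (S : TempApprox V) (h : T211Q.FairCarpets P V G ξ)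
    {K : Set ℂ} (hK : K.Nonempty) {t : ℝ} (ht : 0 ≤ t) (hlim : KKLim V S K t)
    (hgood : ∀ᵐ s ∂(lawS P G), SW814.GoodT V (s 1) K t)
    (hL1 : ∀ φ, IsTest V φ → L1P S P G (SWR.hgt V G ξ) φ)
    {m : ℕ} (z : Fin m → ℂ) {f : (Fin m → ℝ) → ℝ} (hf : Continuous f)
    (hfb : ∃ C, ∀ y, |f y| ≤ C) {χ ψ : ℂ → ℝ} (hχ : IsTest V χ) (hψ : IsTest V ψ)
    (I : Finset (Fin m)) (r : Fin m → ℝ) (hf0 : ∀ y, f y ≠ 0 → ∀ i ∈ I, r i < y i)
    (hs : tsupport ψ ⊆ ⋃ i ∈ I, Metric.ball (z i) (r i)) :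
    ∫ x, (Fc V K t z f (G 1 x) : ℂ) *
      SWR.wt (SWR.hgt V G ξ 1 x (fun w => χ w - UK.lapC ψ w))
        (greenEnergy (V \ (G 1 x : Set ℂ)) (fun w => χ w - UK.lapC ψ w)) ∂P =
    Complex.exp (-(∫ w, ψ w * χ w) - SWR.dir2 ψ / 2) *
    ∫ x, (Fc V K t z f (G 1 x) : ℂ) *
      SWR.wt (SWR.hgt V G ξ 1 x χ) (greenEnergy (V \ (G 1 x : Set ℂ)) χ) ∂P := by
  obtain ⟨C, hC⟩ := hfb
  have hχψ := isTest_sub_lap hχ hψ
  have h1 := lim_Fd ho hb hne hsc S h hK ht hlim hgood z hf hC hχψ (hL1 _ hχψ)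
  have h2 := lim_Fd ho hb hne hsc S h hK ht hlim hgood z hf hC hχ (hL1 _ hχ)
  set c : ℝ := |C| + 1 with hc
  have hc0 : 0 < c := by positivity
  have hcC : ∀ y, |f y| ≤ c := fun y => (hC y).trans ((le_abs_self C).trans (by linarith))
  have h3 := hSeq V ho hb hne hsc S _ (isOpen_biUnion fun i _ => Metric.isOpen_ball) χ ψ hχ hψ hs
    (fun n ω => ((Fd S K t z f n ω / c : ℝ) : ℂ))
    (by
      intro n ω _
      rw [Complex.norm_real, Real.norm_eq_abs, abs_div, abs_of_pos hc0, div_le_one hc0]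
      exact hcC _)
    (fun n => inv_Fd S K t z I r hf0 c n)
  have e : ∀ (φ : ℂ → ℝ) (n : ℕ), Ex (S.T n).V (fun ω => ((Fd S K t z f n ω / c : ℝ) : ℂ) *
      Complex.exp (Complex.I * Real.sqrt (Real.pi / 2) * (hD S φ n ω : ℝ))) =
      (c⁻¹ : ℝ) * Ex (S.T n).V (fun ω => (Fd S K t z f n ω : ℂ) *
      Complex.exp (Complex.I * Real.sqrt (Real.pi / 2) * (hD S φ n ω : ℝ))) := by
    intro φ n
    rw [← _root_.Vale.Agent.P155.K.Ex_const_mul]
    congr 1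
    funext ω
    push_cast
    rw [div_eq_inv_mul]
    ring
  have h3' : Tendsto (fun n => (c⁻¹ : ℝ) * Ex (S.T n).V (fun ω => (Fd S K t z f n ω : ℂ) *
        Complex.exp (Complex.I * Real.sqrt (Real.pi / 2) *
          (hD S (fun z => χ z - UK.lapC ψ z) n ω : ℝ))) -
      Complex.exp (-(∫ w, ψ w * χ w) - SWR.dir2 ψ / 2) * ((c⁻¹ : ℝ) *
        Ex (S.T n).V (fun ω => (Fd S K t z f n ω : ℂ) *
        Complex.exp (Complex.I * Real.sqrt (Real.pi / 2) * (hD S χ n ω : ℝ))))) atTop (𝓝 0) := by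
    refine h3.congr fun n => ?_
    rw [e χ n, e (fun z => χ z - UK.lapC ψ z) n]
  have h4 := (h1.const_mul ((c⁻¹ : ℝ) : ℂ)).sub
    ((h2.const_mul ((c⁻¹ : ℝ) : ℂ)).const_mul
      (Complex.exp (-(∫ w, ψ w * χ w) - SWR.dir2 ψ / 2)))
  have h5 := tendsto_nhds_unique h4 h3'
  have hcne : ((c⁻¹ : ℝ) : ℂ) ≠ 0 := by
    rw [Ne, Complex.ofReal_eq_zero]
    positivity
  have h6 : ((c⁻¹ : ℝ) : ℂ) * ((∫ x, (Fc V K t z f (G 1 x) : ℂ) *
      SWR.wt (SWR.hgt V G ξ 1 x (fun w => χ w - UK.lapC ψ w))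
        (greenEnergy (V \ (G 1 x : Set ℂ)) (fun w => χ w - UK.lapC ψ w)) ∂P) -
    Complex.exp (-(∫ w, ψ w * χ w) - SWR.dir2 ψ / 2) *
    ∫ x, (Fc V K t z f (G 1 x) : ℂ) *
      SWR.wt (SWR.hgt V G ξ 1 x χ) (greenEnergy (V \ (G 1 x : Set ℂ)) χ) ∂P) = 0 := by
    rw [← h5]
    ring
  exact sub_eq_zero.1 ((mul_eq_zero.1 h6).resolve_left hcne)

/-- finitely many big holes of the first carpet -/
theorem fin_one (ho : IsOpen V) (hb : Bornology.IsBounded V) (hne : V.Nonempty)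
    (hsc : SimplyConnectedSpace V) (S : TempApprox V) (h : T211Q.FairCarpets P V G ξ) :
    ∀ᵐ x ∂P, ∀ ε : ℝ, 0 < ε → {U : Set ℂ | IsHole V (G 1 x) U ∧ ε < Metric.diam U}.Finite := by
  obtain ⟨-, h2⟩ := pass_law ho hb hne hsc S h
  have h3 := ae_of_ae_map (measurable_seq h).aemeasurable h2
  filter_upwards [h3] with x hx ε hε
  obtain ⟨n, ω, hpre⟩ := hx
  have hH := holeLoops_of_pre jord hpre
  refine ((hH.fin ε hε).image Prod.snd).subset ?_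
  rintro U ⟨hU, hU2⟩
  exact ⟨(1, U), ⟨le_rfl, hU, hU2⟩, rfl⟩

theorem lim_t {K : Set ℂ} (hKc : IsClosed K) (hK : K.Nonempty) (hb : Bornology.IsBounded V)
    (ho : IsOpen V) (h : T211Q.FairCarpets P V G ξ)
    (hfin : ∀ᵐ x ∂P, ∀ ε : ℝ, 0 < ε → {U : Set ℂ | IsHole V (G 1 x) U ∧ ε < Metric.diam U}.Finite)
    {t : ℕ → ℝ} (ht0 : ∀ n, 0 < t n) (ht : Tendsto t atTop (𝓝[>] 0))
    {m : ℕ} (z : Fin m → ℂ) {f : (Fin m → ℝ) → ℝ} (hf : Continuous f)
    {C : ℝ} (hC : ∀ y, |f y| ≤ C) {φ : ℂ → ℝ} (hφ : IsTest V φ) :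
    Tendsto (fun n => ∫ x, (Fc V K (t n) z f (G 1 x) : ℂ) *
      SWR.wt (SWR.hgt V G ξ 1 x φ) (greenEnergy (V \ (G 1 x : Set ℂ)) φ) ∂P) atTop
      (𝓝 (∫ x, (f (fun i => Metric.infDist (z i) (SWR.KK V K (G 1 x))) : ℂ) *
      SWR.wt (SWR.hgt V G ξ 1 x φ) (greenEnergy (V \ (G 1 x : Set ℂ)) φ) ∂P)) := by
  have hP := h.prob
  have hm1 : Measurable (G 1) := h.mG 1
  refine tendsto_integral_of_dominated_convergence (fun _ => C) ?_ (integrable_const C) ?_ ?_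
  · intro n
    exact ((Complex.measurable_ofReal.comp
      ((measurable_Fc ho hb hK (ht0 n).le z hf).comp hm1)).mul (meas_wt h hφ)).aestronglyMeasurable
  · intro n
    refine Eventually.of_forall fun x => ?_
    rw [norm_mul, Complex.norm_real, Real.norm_eq_abs]
    calc _ ≤ C * 1 := mul_le_mul (hC _)
          (norm_wt_le (U613.greenEnergy_nonneg hb hφ Set.sdiff_subset)) (norm_nonneg _)
          ((abs_nonneg _).trans (hC fun _ => 0))
      _ = C := mul_one C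
  · filter_upwards [hfin] with x hx
    refine Tendsto.mul_const _ ?_
    refine (Complex.continuous_ofReal.tendsto _).comp ((hf.tendsto _).comp
      (tendsto_pi_nhds.2 fun i => ?_))
    rw [KK_eq hKc]
    exact (SW814.tendsto_KK hb hx hK hKc (z i)).comp ht

end

/-- **SDL** from the discrete Schwinger-Dyson identity, the convergence of the explored sets and
the limit for continuous functions of the first carpet. -/
theorem sdl_of (hSeq : SeqP)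
    (hKK : ∀ Ω : Set ℂ, IsOpen Ω → Bornology.IsBounded Ω → Ω.Nonempty →
      SimplyConnectedSpace Ω → ∀ S : TempApprox Ω, ∀ K : Set ℂ, IsClosed K → IsConnected K →
      Ωᶜ ⊆ K → ∀ t : ℝ, 0 < t → KKLim Ω S K t)
    (hL1 : ∀ Ω : Set ℂ, IsOpen Ω → Bornology.IsBounded Ω → Ω.Nonempty →
      SimplyConnectedSpace Ω → ∀ S : TempApprox Ω, ∀ {Θ : Type} [MeasurableSpace Θ]
      (P : Measure Θ) (G : ℕ → Θ → NonemptyCompacts ℂ) (ξ : ℕ → ℕ → Θ → ℝ),
      T211Q.FairCarpets P Ω G ξ → ∀ φ, IsTest Ω φ → L1P S P G (SWR.hgt Ω G ξ) φ) :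
    SWR.SDL := by
  intro Ω ho hb hne hsc Θ _ P G ξ h K hKc hKn hKs
  have hP := h.prob
  have hK : K.Nonempty := hKn.nonempty
  refine ⟨fun z => ?_, ?_⟩
  · simp only [KK_eq hKc]
    exact ((SW814.measurable_KK ho hb hK le_rfl z).comp (h.mG 1)).aemeasurable
  intro m z f hf hfb χ ψ hχ hψ hI
  obtain ⟨I, r, hr, hf0, hs⟩ := hI
  obtain ⟨C, hC⟩ := hfb
  obtain ⟨S⟩ := EXA.exists_approx Ω ho hb hne hsc
  have hLp := lawS_prob h
  obtain ⟨N, hN, hN2⟩ := SW814.countable_bad (P := lawS P G) (G := fun s : SQ => s 1) ho K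
    (measurable_pi_apply 1)
  obtain ⟨t, ht0, htN, ht⟩ := SW814.exists_good_seq hN
  have hfin := fin_one ho hb hne hsc S h
  have hid := fun n => sd_t hSeq ho hb hne hsc S h hK (ht0 n).le
    (hKK Ω ho hb hne hsc S K hKc hKn hKs (t n) (ht0 n)) (hN2 (t n) (ht0 n).le (htN n))
    (fun φ hφ => hL1 Ω ho hb hne hsc S P G ξ h φ hφ) z hf ⟨C, hC⟩ hχ hψ I r hf0 hs
  have h1 := lim_t hKc hK hb ho h hfin ht0 ht z hf hC (isTest_sub_lap hχ hψ)
  have h2 := (lim_t hKc hK hb ho h hfin ht0 ht z hf hC hχ).const_mul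
    (Complex.exp (-(∫ w, ψ w * χ w) - SWR.dir2 ψ / 2))
  exact tendsto_nhds_unique h1 (h2.congr fun n => (hid n).symm)

end Vale.Agent.P155.SW743
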