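import Vale.Agent.P155.U.Bump
import Vale.Agent.P155.U.Taylor
import Vale.Agent.P155.U.P1
import Mathlib.Topology.ContinuousMap.SecondCountableSpace

/-!
# P155, (SW): a countable family of test functions, dense with two derivatives
-/

namespace Vale.Agent.P155.SW743

open MeasureTheory Filter Topology TopologicalSpace Vale.Agent.P155 Metric Set
open scoped ContDiff

/-- a function with its first derivatives and its Laplacian -/
noncomputable def jet (f : ℂ → ℝ) (z : ℂ) : ℝ × ℝ × ℝ × ℝ :=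
  (f z, UK.dx f z, UK.dy f z, UK.lapC f z)

theorem continuous_jet {f : ℂ → ℝ} (hf : ContDiff ℝ ∞ f) : Continuous (jet f) := by
  have h1 := UK.contDiff_dx hf
  have h2 := UK.contDiff_dy hf
  have h3 := UK.contDiff_dx h1
  have h4 := UK.contDiff_dy h2
  unfold jet UK.lapC
  exact hf.continuous.prodMk (h1.continuous.prodMk (h2.continuous.prodMk
    (h3.continuous.add h4.continuous)))

theorem fderiv_off {f : ℂ → ℝ} {z : ℂ} (hz : z ∉ tsupport f) : fderiv ℝ f z = 0 := by
  by_contra h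
  exact hz (support_fderiv_subset ℝ (Function.mem_support.2 h))

theorem tsupport_dx (f : ℂ → ℝ) : tsupport (UK.dx f) ⊆ tsupport f := by
  refine closure_minimal ?_ (isClosed_tsupport f)
  intro z hz
  by_contra h
  apply hz
  unfold UK.dx
  rw [fderiv_off h]
  rfl

theorem tsupport_dy (f : ℂ → ℝ) : tsupport (UK.dy f) ⊆ tsupport f := by
  refine closure_minimal ?_ (isClosed_tsupport f)
  intro z hz
  by_contra h
  apply hz
  unfold UK.dy
  rw [fderiv_off h]
  rfl

theorem jet_off {f : ℂ → ℝ} {z : ℂ} (hz : z ∉ tsupport f) : jet f z = 0 := by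
  have h1 : f z = 0 := image_eq_zero_of_notMem_tsupport hz
  have h2 : UK.dx f z = 0 := by unfold UK.dx; rw [fderiv_off hz]; rfl
  have h3 : UK.dy f z = 0 := by unfold UK.dy; rw [fderiv_off hz]; rfl
  have h4 : UK.dx (UK.dx f) z = 0 := by
    rw [show UK.dx (UK.dx f) z = fderiv ℝ (UK.dx f) z 1 from rfl,
      fderiv_off fun h => hz (tsupport_dx f h)]
    rfl
  have h5 : UK.dy (UK.dy f) z = 0 := by
    rw [show UK.dy (UK.dy f) z = fderiv ℝ (UK.dy f) z Complex.I from rfl,
      fderiv_off fun h => hz (tsupport_dy f h)]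
    rfl
  unfold jet UK.lapC
  rw [h1, h2, h3, h4, h5, add_zero]
  rfl

theorem dense_one {U : Set ℂ} (hU : Bornology.IsBounded U) : ∃ e : ℕ → ℂ → ℝ,
    (∀ n, IsTest U (e n)) ∧ ∀ ψ, IsTest U ψ → ∃ k : ℕ → ℕ,
      TendstoUniformly (fun n => jet (e (k n))) (jet ψ) atTop := by
  set S : Set C(ℂ, ℝ × ℝ × ℝ × ℝ) := {F | ∃ ψ, IsTest U ψ ∧ (F : ℂ → ℝ × ℝ × ℝ × ℝ) = jet ψ}
    with hS
  have hsep : TopologicalSpace.IsSeparable S := by
    have : SeparableSpace S := inferInstance
    exact IsSeparable.of_subtype S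
  obtain ⟨c, hcS, hcc, hSc⟩ := hsep.exists_countable_dense_subset
  have hmem : ∀ ψ (hψ : IsTest U ψ), (⟨jet ψ, continuous_jet hψ.1⟩ : C(ℂ, ℝ × ℝ × ℝ × ℝ)) ∈ S :=
    fun ψ hψ => ⟨ψ, hψ, rfl⟩
  have hne : c.Nonempty := by
    by_contra h
    rw [not_nonempty_iff_eq_empty] at h
    rw [h, closure_empty, subset_empty_iff] at hSc
    have := hmem _ (_root_.Vale.Agent.P155.U.isTest_zero U)
    rw [hSc] at this
    exact this
  obtain ⟨x, hx⟩ := hcc.exists_eq_range hne
  have hxS : ∀ n, ∃ ψ, IsTest U ψ ∧ (x n : ℂ → ℝ × ℝ × ℝ × ℝ) = jet ψ := by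
    intro n
    apply hcS
    rw [hx]
    exact mem_range_self n
  choose e he hxe using hxS
  refine ⟨e, he, fun ψ hψ => ?_⟩
  obtain ⟨F, hF, hlim⟩ := mem_closure_iff_seq_limit.1 (hSc (hmem ψ hψ))
  have hk : ∀ n, ∃ k, x k = F n := by
    intro n
    have := hF n
    rw [hx] at this
    exact this
  choose k hk using hk
  refine ⟨k, ?_⟩
  have h1 := (ContinuousMap.tendsto_iff_forall_isCompact_tendstoUniformlyOn.1 hlim)
    (closure U) hU.isCompact_closure
  rw [Metric.tendstoUniformly_iff]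
  rw [Metric.tendstoUniformlyOn_iff] at h1
  intro ε hε
  filter_upwards [h1 ε hε] with n hn z
  by_cases hz : z ∈ closure U
  · have := hn z hz
    rw [← hk n] at this
    rw [← hxe (k n)]
    exact this
  · have h2 : z ∉ tsupport ψ := fun h => hz (subset_closure (hψ.2.2 h))
    have h3 : z ∉ tsupport (e (k n)) := fun h => hz (subset_closure ((he (k n)).2.2 h))
    rw [jet_off h2, jet_off h3, dist_self]
    exact hε

/-- finite unions of balls with rational data -/
def UB (s : Finset (ℕ × ℚ)) : Set ℂ := ⋃ p ∈ s, ball (denseSeq ℂ p.1) (p.2 : ℝ)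

theorem bounded_UB (s : Finset (ℕ × ℚ)) : Bornology.IsBounded (UB s) := by
  unfold UB
  exact (Bornology.isBounded_biUnion_finset s).2 fun p _ => isBounded_ball

/-- **A countable family of test functions, dense with two derivatives**, one for each finite union
of rational balls. -/
theorem dense_C2 : ∃ e : Finset (ℕ × ℚ) → ℕ → ℂ → ℝ, (∀ s n, IsTest (UB s) (e s n)) ∧
    ∀ s ψ, IsTest (UB s) ψ → ∃ k : ℕ → ℕ,
      TendstoUniformly (fun n => jet (e s (k n))) (jet ψ) atTop := by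
  choose e he using fun s => dense_one (bounded_UB s)
  exact ⟨e, fun s => (he s).1, fun s => (he s).2⟩

/-- compact subsets of open sets are covered by finitely many small rational balls -/
theorem cover {W L : Set ℂ} (hW : IsOpen W) (hL : IsCompact L) (hLW : L ⊆ W) :
    ∃ s : Finset (ℕ × ℚ), (∀ p ∈ s, 0 < p.2 ∧ closedBall (denseSeq ℂ p.1) (p.2 : ℝ) ⊆ W) ∧
      L ⊆ UB s := by
  classical
  have h : ∀ z : ℂ, ∃ p : ℕ × ℚ, z ∈ L → 0 < p.2 ∧
      closedBall (denseSeq ℂ p.1) (p.2 : ℝ) ⊆ W ∧ z ∈ ball (denseSeq ℂ p.1) (p.2 : ℝ) := by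
    intro z
    by_cases hz : z ∈ L
    · obtain ⟨ρ, hρ, hsub⟩ := Metric.isOpen_iff.1 hW z (hLW hz)
      obtain ⟨r, hr1, hr2⟩ := exists_rat_btwn (show (0 : ℝ) < ρ / 2 by positivity)
      have hr0 : (0 : ℝ) < r := hr1
      obtain ⟨i, hi⟩ := (denseRange_denseSeq ℂ).exists_dist_lt z hr0
      refine ⟨(i, r), fun _ => ⟨by exact_mod_cast hr0, ?_, ?_⟩⟩
      · intro w hw
        apply hsub
        rw [mem_closedBall] at hw
        rw [mem_ball]
        have h1 := dist_triangle w (denseSeq ℂ i) z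
        rw [dist_comm (denseSeq ℂ i) z] at h1
        linarith
      · exact hi
    · exact ⟨(0, 0), fun h => absurd h hz⟩
  choose p hp using h
  obtain ⟨t, htL, ht⟩ := hL.elim_nhds_subcover
    (fun z => if z ∈ L then ball (denseSeq ℂ (p z).1) ((p z).2 : ℝ) else univ) (by
      intro z hz
      rw [if_pos hz]
      exact isOpen_ball.mem_nhds (hp z hz).2.2)
  refine ⟨t.image p, ?_, ?_⟩
  · intro q hq
    obtain ⟨z, hz, rfl⟩ := Finset.mem_image.1 hq
    exact ⟨(hp z (htL z hz)).1, (hp z (htL z hz)).2.1⟩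
  · intro w hw
    obtain ⟨z, hz, hwz⟩ := mem_iUnion₂.1 (ht hw)
    rw [if_pos (htL z hz)] at hwz
    unfold UB
    exact mem_iUnion₂.2 ⟨p z, Finset.mem_image_of_mem p hz, hwz⟩

end Vale.Agent.P155.SW743
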