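import Vale.Agent.P155.SW743.Fin
import Vale.Agent.P155.SW730.SeqP

/-!
# P155, (SW): **SDL**, the Schwinger-Dyson identity given the explored part
-/

namespace Vale.Agent.P155.SW743

/-- **Blocks (1)-(3).** -/
theorem sdl : SWR.SDL := sdl_of_seq SW730.seqP

end Vale.Agent.P155.SW743
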